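import Mathlib
import Vale.Agent.Lib.P243.R3.Defs
import Vale.Agent.Lib.P243.R3.helper25.M5

/-!
# P243, `r_3 > 1/3`: module M6 (every convex body has a calibration with constant below 3)

`M6_core` takes the inputs of the modules M1 (continuity and nonnegativity of `Ahat`), M3a
(the bound `Ahat K (q - p) ≤ 3 vol K`) and M4 (a hitting set for the efficient chords) as
hypotheses and uses the landed module M5 directly.
-/

namespace Vale.Agent.Lib.P243.R3.H37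

open MeasureTheory Set Vale.Agent.Lib.P243.R3 Vale.Agent.Lib.P243.R3.H25
open scoped Pointwise

lemma vol_pos {K : Set E3} (hK : Body K) : 0 < (volume K).toReal := by
  have h1 : 0 < volume (interior K) := isOpen_interior.measure_pos volume hK.int
  have h2 : 0 < volume K := lt_of_lt_of_le h1 (measure_mono interior_subset)
  exact ENNReal.toReal_pos h2.ne' hK.compact.measure_lt_top.ne

lemma Ahat_zero (K : Set E3) : Ahat K 0 = 0 := by
  simp [Ahat, segment_same]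

lemma setIntegral_affine {K : Set E3} (hK : Body K) {b : E3 → ℝ} (hb : Continuous b) (ε : ℝ) :
    ∫ x in K, (1 + ε * (1 - b x)) = (1 + ε) * (volume K).toReal - ε * ∫ x in K, b x := by
  have hbint : IntegrableOn b K := hb.continuousOn.integrableOn_compact hK.compact
  have hcint : IntegrableOn (fun _ : E3 => (1 + ε : ℝ)) K :=
    continuous_const.continuousOn.integrableOn_compact hK.compact
  have h1 : (fun x : E3 => 1 + ε * (1 - b x)) = fun x => (1 + ε) - ε * b x := by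
    funext x; ring
  rw [h1, integral_sub hcint (hbint.const_mul ε), setIntegral_const, integral_const_mul]
  simp [Measure.real, mul_comm]

lemma avgSeg_affine {b : E3 → ℝ} (hb : Continuous b) (ε : ℝ) (p q : E3) :
    avgSeg (fun x => 1 + ε * (1 - b x)) p q = (1 + ε) - ε * avgSeg b p q := by
  unfold avgSeg
  have hc : Continuous fun t : ℝ => b (p + t • (q - p)) :=
    hb.comp (continuous_const.add (continuous_id.smul continuous_const))
  have h1 : (fun t : ℝ => 1 + ε * (1 - b (p + t • (q - p))))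
      = fun t => (1 + ε) - ε * b (p + t • (q - p)) := by
    funext t; ring
  rw [h1, intervalIntegral.integral_sub (continuous_const.intervalIntegrable _ _)
    ((hc.const_mul ε).intervalIntegrable _ _), intervalIntegral.integral_const,
    intervalIntegral.integral_const_mul]
  simp

lemma arith_in {vol Ib bet ε η Θ A f : ℝ} (hvol : 0 < vol) (_hIb0 : 0 ≤ Ib)
    (hIb : Ib ≤ bet * vol / 2) (hbet2 : bet ≤ 1 / 2) (hε0 : 0 < ε)
    (hεη : ε * (2 * (3 * vol)) ≤ η) (hΘ1 : 3 - η / (2 * vol) ≤ Θ) (hΘ0 : 0 < Θ)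
    (hA0 : 0 ≤ A) (hf0 : 0 ≤ f) (hfη : f ≤ 3 * vol - η) :
    (1 + ε - ε * A) * f ≤ Θ * ((1 + ε) * vol - ε * Ib) := by
  have hb : bet * vol ≤ 1 / 2 * vol := mul_le_mul_of_nonneg_right hbet2 hvol.le
  have hIbvol : Ib ≤ vol := by linarith
  have hG1 : vol ≤ (1 + ε) * vol - ε * Ib := by
    have := mul_nonneg hε0.le (sub_nonneg.2 hIbvol)
    linarith
  have h0 : 0 ≤ ε * A * f := mul_nonneg (mul_nonneg hε0.le hA0) hf0
  have h1 : (1 + ε - ε * A) * f ≤ (1 + ε) * f := by linarith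
  have h2 : (1 + ε) * f ≤ (1 + ε) * (3 * vol - η) :=
    mul_le_mul_of_nonneg_left hfη (by linarith)
  have hη0 : 0 ≤ η := le_trans (by positivity) hεη
  have h2' : (1 + ε) * (3 * vol - η) ≤ 3 * vol - η / 2 := by
    have := mul_nonneg hε0.le hη0
    linarith
  have h3 : (3 - η / (2 * vol)) * vol = 3 * vol - η / 2 := by field_simp
  have h4 : (3 - η / (2 * vol)) * vol ≤ Θ * vol := mul_le_mul_of_nonneg_right hΘ1 hvol.le
  have h5 : Θ * vol ≤ Θ * ((1 + ε) * vol - ε * Ib) := mul_le_mul_of_nonneg_left hG1 hΘ0.le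
  linarith

lemma arith_out {vol Ib bet ε Θ A f : ℝ} (hvol : 0 < vol) (hIb0 : 0 ≤ Ib)
    (hIb : Ib ≤ bet * vol / 2) (hbet0 : 0 < bet) (hbet2 : bet ≤ 1 / 2) (hε0 : 0 < ε)
    (hε1 : ε ≤ 1) (hΘ2 : 3 * (1 - ε * bet / 8) ≤ Θ) (hAgt : Ib / vol + bet / 4 < A)
    (hf0 : 0 ≤ f) (hfM : f ≤ 3 * vol) :
    (1 + ε - ε * A) * f ≤ Θ * ((1 + ε) * vol - ε * Ib) := by
  have hb : bet * vol ≤ 1 / 2 * vol := mul_le_mul_of_nonneg_right hbet2 hvol.le
  have hIbvol : Ib ≤ vol / 4 := by linarith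
  have hIbv : Ib / vol ≤ 1 / 4 := by rw [div_le_iff₀ hvol]; linarith
  have hIbv0 : 0 ≤ Ib / vol := div_nonneg hIb0 hvol.le
  obtain ⟨G, hGdef⟩ : ∃ G : ℝ, G = (1 + ε) * vol - ε * Ib := ⟨_, rfl⟩
  rw [← hGdef]
  have hG1 : vol ≤ G := by
    have := mul_nonneg hε0.le (by linarith : (0 : ℝ) ≤ vol - Ib)
    rw [hGdef]; linarith
  have hG2 : G ≤ 2 * vol := by
    have h1 := mul_nonneg hε0.le hIb0
    have h2 : ε * vol ≤ 1 * vol := mul_le_mul_of_nonneg_right hε1 hvol.le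
    rw [hGdef]; linarith
  obtain ⟨c, hcdef⟩ : ∃ c : ℝ, c = 1 + ε - ε * (Ib / vol + bet / 4) := ⟨_, rfl⟩
  have hc1 : 1 + ε - ε * A ≤ c := by
    have := mul_le_mul_of_nonneg_left hAgt.le hε0.le
    rw [hcdef]; linarith
  have hc0 : 0 ≤ c := by
    have h1 : ε * (Ib / vol + bet / 4) ≤ ε * 1 :=
      mul_le_mul_of_nonneg_left (by linarith) hε0.le
    rw [hcdef]; linarith
  have h1 : (1 + ε - ε * A) * f ≤ c * f := mul_le_mul_of_nonneg_right hc1 hf0
  have h2 : c * f ≤ c * (3 * vol) := mul_le_mul_of_nonneg_left hfM hc0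
  have h3 : c * (3 * vol) = 3 * G - 3 * ε * bet * vol / 4 := by
    rw [hcdef, hGdef]; field_simp; ring
  have hεb : 0 ≤ ε * bet := mul_nonneg hε0.le hbet0.le
  have h4 : 3 * G - 3 * ε * bet * vol / 4 ≤ 3 * (1 - ε * bet / 8) * G := by
    have := mul_le_mul_of_nonneg_left hG2 hεb
    linarith
  have h5 : 3 * (1 - ε * bet / 8) * G ≤ Θ * G :=
    mul_le_mul_of_nonneg_right hΘ2 (hvol.le.trans hG1)
  linarith

/-- Module M6 with the inputs of M1, M3a and M4 as hypotheses. -/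
theorem M6_core {K : Set E3} (hK : Body K)
    (hcont : Continuous (Ahat K))
    (hnn : ∀ w : E3, 0 ≤ Ahat K w)
    (hle : ∀ p ∈ K, ∀ q ∈ K, Ahat K (q - p) ≤ 3 * (volume K).toReal)
    (hhit : ∃ α β : Fin 3 → E3, (∀ j, α j ∈ K ∧ β j ∈ K) ∧
      ∀ p ∈ K, ∀ q ∈ K, p ≠ q → Ahat K (q - p) = 3 * (volume K).toReal →
        (p ∈ ⋃ j, segment ℝ (α j) (β j)) ∨ (q ∈ ⋃ j, segment ℝ (α j) (β j))) :
    ∃ (g : E3 → ℝ) (Θ : ℝ), 0 < Θ ∧ Θ < 3 ∧ Good K g Θ := by
  obtain ⟨α, β, -, hhit⟩ := hhit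
  obtain ⟨vol, hvoldef⟩ : ∃ vol : ℝ, vol = (volume K).toReal := ⟨_, rfl⟩
  rw [← hvoldef] at hle hhit
  have hvol : 0 < vol := hvoldef ▸ vol_pos hK
  -- diameter bound
  obtain ⟨C₀, hC₀⟩ := Metric.isBounded_iff.1 hK.compact.isBounded
  obtain ⟨D, hDdef⟩ : ∃ D : ℝ, D = max C₀ 1 := ⟨_, rfl⟩
  have hD1 : 1 ≤ D := hDdef ▸ le_max_right _ _
  have hD : ∀ p ∈ K, ∀ q ∈ K, dist p q ≤ D := fun p hp q hq =>
    (hC₀ hp hq).trans (hDdef ▸ le_max_left _ _)
  -- the hitting set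
  obtain ⟨V, hVdef⟩ : ∃ V : Set E3, V = ⋃ j, segment ℝ (α j) (β j) := ⟨_, rfl⟩
  rw [← hVdef] at hhit
  have hVne : V.Nonempty :=
    ⟨α 0, hVdef ▸ mem_iUnion.2 ⟨0, left_mem_segment ℝ _ _⟩⟩
  obtain ⟨C, hC0, hC⟩ := M5c_bump_integral_le hK α β
  rw [← hVdef] at hC
  -- the scale
  obtain ⟨τ, hτdef⟩ : ∃ τ : ℝ, τ = min 1 (vol / (4 * (C + 1) * D)) := ⟨_, rfl⟩
  have hden : 0 < 4 * (C + 1) * D := by positivity
  have hτ0 : 0 < τ := hτdef ▸ lt_min one_pos (div_pos hvol hden)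
  have hτ1 : τ ≤ 1 := hτdef ▸ min_le_left _ _
  have hτD : τ ≤ D := hτ1.trans hD1
  have hτv : τ * (4 * (C + 1) * D) ≤ vol := by
    have h := hτdef ▸ min_le_right (1 : ℝ) (vol / (4 * (C + 1) * D))
    exact (le_div_iff₀ hden).1 h
  obtain ⟨bet, hbetdef⟩ : ∃ bet : ℝ, bet = τ / (2 * D) := ⟨_, rfl⟩
  have h2D : 0 < 2 * D := by positivity
  have hbet0 : 0 < bet := hbetdef ▸ div_pos hτ0 h2D
  have hbetD : bet * (2 * D) = τ := by rw [hbetdef]; field_simp
  have hbet2 : bet ≤ 1 / 2 := by nlinarith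
  -- the bump
  obtain ⟨b, hbdef⟩ : ∃ b : E3 → ℝ, b = bump V τ := ⟨_, rfl⟩
  have hbc : Continuous b := hbdef ▸ M5a_bump_continuous hVne hτ0
  have hb01 : ∀ x, 0 ≤ b x ∧ b x ≤ 1 := fun x => hbdef ▸ M5b_bump_mem V hτ0.le x
  obtain ⟨Ib, hIbdef⟩ : ∃ Ib : ℝ, Ib = ∫ x in K, b x := ⟨_, rfl⟩
  have hIb0 : 0 ≤ Ib :=
    hIbdef ▸ setIntegral_nonneg hK.compact.measurableSet (fun x _ => (hb01 x).1)
  have hIbC : Ib ≤ C * τ ^ 2 := by
    rw [hIbdef, hbdef]; exact hC τ hτ0 hτ1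
  have hIb : Ib ≤ bet * vol / 2 := by
    have h1 : C * τ * (4 * D) ≤ τ * (4 * (C + 1) * D) := by nlinarith
    have h2 : C * τ ^ 2 * (4 * D) ≤ τ * vol := by nlinarith
    have h3 : bet * vol / 2 * (4 * D) = τ * vol := by rw [← hbetD]; ring
    have h4D : 0 < 4 * D := by positivity
    nlinarith
  have hIbv : Ib / vol ≤ bet / 2 := by
    rw [div_le_iff₀ hvol]; linarith
  -- averages of the bump over segments
  have hA0 : ∀ p q : E3, 0 ≤ avgSeg b p q := fun p q =>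
    intervalIntegral.integral_nonneg (by norm_num) (fun t _ => (hb01 _).1)
  have hAcont : Continuous (fun pq : E3 × E3 => avgSeg b pq.1 pq.2) :=
    M5f_avgSeg_continuous hbc
  have hAhit : ∀ p ∈ K, ∀ q ∈ K, p ∈ V → bet ≤ avgSeg b p q := by
    intro p hp q hq hpV
    rw [hbetdef, hbdef]
    exact M5d_avg_bump_ge hpV q hτ0 hτD (hD p hp q hq)
  -- the compact set of pairs
  obtain ⟨W, hWdef⟩ : ∃ W : Set (E3 × E3),
      W = (K ×ˢ K) ∩ {pq | avgSeg b pq.1 pq.2 ≤ Ib / vol + bet / 4} := ⟨_, rfl⟩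
  have hWc : IsCompact W :=
    hWdef ▸ (hK.compact.prod hK.compact).inter_right (isClosed_le hAcont continuous_const)
  obtain ⟨F, hFdef⟩ : ∃ F : E3 × E3 → ℝ, F = fun pq => Ahat K (pq.2 - pq.1) := ⟨_, rfl⟩
  have hF : Continuous F := hFdef ▸ hcont.comp (continuous_snd.sub continuous_fst)
  have hWlt : ∀ pq ∈ W, F pq < 3 * vol := by
    rintro ⟨p, q⟩ hpq
    rw [hWdef] at hpq
    obtain ⟨⟨hp, hq⟩, hA⟩ := hpq
    have hp : p ∈ K := hp
    have hq : q ∈ K := hq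
    have hA : avgSeg b p q ≤ Ib / vol + bet / 4 := hA
    rw [hFdef]
    rcases (hle p hp q hq).lt_or_eq with h | h
    · exact h
    · exfalso
      by_cases hpq : p = q
      · subst hpq
        rw [sub_self, Ahat_zero] at h
        linarith
      · rcases hhit p hp q hq hpq h with hpV | hqV
        · have := hAhit p hp q hq hpV
          linarith
        · have := hAhit q hq p hp hqV
          rw [M5e_avgSeg_symm] at this
          linarith
  obtain ⟨η, hη0, hη⟩ : ∃ η : ℝ, 0 < η ∧ ∀ pq ∈ W, F pq ≤ 3 * vol - η := by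
    by_cases hWne : W.Nonempty
    · obtain ⟨pq₀, hpq₀, hmax⟩ := hWc.exists_isMaxOn hWne hF.continuousOn
      refine ⟨3 * vol - F pq₀, sub_pos.2 (hWlt pq₀ hpq₀), fun pq hpq => ?_⟩
      have : F pq ≤ F pq₀ := hmax hpq
      linarith
    · exact ⟨1, one_pos, fun pq hpq => (hWne ⟨pq, hpq⟩).elim⟩
  -- the density
  have hM : 0 < 2 * (3 * vol) := by positivity
  obtain ⟨ε, hεdef⟩ : ∃ ε : ℝ, ε = min 1 (η / (2 * (3 * vol))) := ⟨_, rfl⟩
  have hε0 : 0 < ε := hεdef ▸ lt_min one_pos (div_pos hη0 hM)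
  have hε1 : ε ≤ 1 := hεdef ▸ min_le_left _ _
  have hεη : ε * (2 * (3 * vol)) ≤ η := by
    have h := hεdef ▸ min_le_right (1 : ℝ) (η / (2 * (3 * vol)))
    exact (le_div_iff₀ hM).1 h
  obtain ⟨Θ, hΘdef⟩ : ∃ Θ : ℝ, Θ = max (3 - η / (2 * vol)) (3 * (1 - ε * bet / 8)) := ⟨_, rfl⟩
  have hεb : ε * bet ≤ 1 / 2 := by nlinarith
  have hεb0 : 0 < ε * bet := mul_pos hε0 hbet0
  have hΘ1 : 3 - η / (2 * vol) ≤ Θ := hΘdef ▸ le_max_left _ _
  have hΘ2 : 3 * (1 - ε * bet / 8) ≤ Θ := hΘdef ▸ le_max_right _ _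
  have hΘ0 : 0 < Θ := lt_of_lt_of_le (by nlinarith) hΘ2
  have hΘ3 : Θ < 3 := by
    rw [hΘdef]
    refine max_lt ?_ ?_
    · have : 0 < η / (2 * vol) := div_pos hη0 (by positivity)
      linarith
    · nlinarith
  refine ⟨fun x => 1 + ε * (1 - b x), Θ, hΘ0, hΘ3, ?_, ?_, ?_⟩
  · exact continuous_const.add (continuous_const.mul (continuous_const.sub hbc))
  · intro x
    obtain ⟨h0, h1⟩ := hb01 x
    constructor
    · nlinarith
    · nlinarith
  · intro p hp q hq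
    obtain ⟨A, hAdef⟩ : ∃ A : ℝ, A = avgSeg b p q := ⟨_, rfl⟩
    have hA0' : 0 ≤ A := hAdef ▸ hA0 p q
    obtain ⟨f, hfdef⟩ : ∃ f : ℝ, f = Ahat K (q - p) := ⟨_, rfl⟩
    have hf0 : 0 ≤ f := hfdef ▸ hnn _
    have hfM : f ≤ 3 * vol := hfdef ▸ hle p hp q hq
    obtain ⟨G, hGdef⟩ : ∃ G : ℝ, G = (1 + ε) * vol - ε * Ib := ⟨_, rfl⟩
    have e1 : avgSeg (fun x => 1 + ε * (1 - b x)) p q = 1 + ε - ε * A := by
      rw [hAdef]; exact avgSeg_affine hbc ε p q
    have e2 : ∫ x in K, (1 + ε * (1 - b x)) = G := by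
      rw [hGdef, hvoldef, hIbdef]; exact setIntegral_affine hK hbc ε
    suffices hmain : (1 + ε - ε * A) * f ≤ Θ * G by
      rw [e1, e2, ← hfdef]; exact hmain
    by_cases hW : (p, q) ∈ W
    · have hfη : f ≤ 3 * vol - η := by
        have := hη (p, q) hW
        rw [hFdef] at this
        rw [hfdef]; exact this
      rw [hGdef]
      exact arith_in hvol hIb0 hIb hbet2 hε0 hεη hΘ1 hΘ0 hA0' hf0 hfη
    · have hAgt : Ib / vol + bet / 4 < A := by
        by_contra hcon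
        apply hW
        rw [hWdef]
        refine ⟨⟨hp, hq⟩, ?_⟩
        have hcon' : A ≤ Ib / vol + bet / 4 := not_lt.1 hcon
        rw [hAdef] at hcon'
        exact hcon'
      rw [hGdef]
      exact arith_out hvol hIb0 hIb hbet0 hbet2 hε0 hε1 hΘ2 hAgt hf0 hfM

end Vale.Agent.Lib.P243.R3.H37
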